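import Vale.Agent.P340.GND.Assembly
import Vale.Agent.P340.GND.NoLam
import Vale.Agent.P340.GND.Shapes
import Vale.Agent.P340.GND.CPS

/-!
# P340: weak normalization gives strong normalization for generalized nondependent systems
-/

universe u

namespace Vale.Agent.Results.P340.GNDBGK

open Vale.Agent.P340

/-- Every weakly normalizing generalized nondependent pure type system is strongly normalizing. -/
theorem result :
    ∀ {S : Type u} (P : Spec S), P.IsGND → WeaklyNormalizing P → StronglyNormalizing P :=
  bgk_of_step (step_of_cases noLamCase shapeCase cpsCase)

end Vale.Agent.Results.P340.GNDBGK
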